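import Mathlib

/-!
# P036: definitions

The plane is `EuclideanSpace ℝ (Fin 2)`.
-/

namespace Vale.Agent.P036h

/-- The Euclidean plane. -/
abbrev Pt : Type := EuclideanSpace ℝ (Fin 2)

/-- The area of the triangle `p q r`: half the absolute value of `det (q - p, r - p)`. -/
noncomputable def area (p q r : Pt) : ℝ :=
  |(q 0 - p 0) * (r 1 - p 1) - (q 1 - p 1) * (r 0 - p 0)| / 2

/-- `P` lies in the unit square. -/
def InSquare (P : Finset Pt) : Prop :=
  ∀ p ∈ P, (0 ≤ p 0 ∧ p 0 ≤ 1) ∧ (0 ≤ p 1 ∧ p 1 ≤ 1)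

/-- Three distinct points of `P` form a triangle of area at most `A`, that is `Δ(P) ≤ A`. -/
def HasTriangle (P : Finset Pt) (A : ℝ) : Prop :=
  ∃ p ∈ P, ∃ q ∈ P, ∃ r ∈ P, p ≠ q ∧ q ≠ r ∧ p ≠ r ∧ area p q r ≤ A

/-- The length of the polygonal path `p 0, …, p (n - 1)`. -/
noncomputable def pathLen (n : ℕ) (p : ℕ → Pt) : ℝ :=
  ∑ i ∈ Finset.range (n - 1), dist (p i) (p (i + 1))

/-- The total turning of the polygonal path `p 0, …, p (n - 1)`: the sum of the angles between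
consecutive edge vectors. -/
noncomputable def pathTurn (n : ℕ) (p : ℕ → Pt) : ℝ :=
  ∑ i ∈ Finset.range (n - 2), InnerProductGeometry.angle (p (i + 1) - p i) (p (i + 2) - p (i + 1))

end Vale.Agent.P036h
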