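import Vale.Agent.P036h.Tri
import Vale.Agent.P041.BSG

/-!
# P036: sets with small difference set, sets with large additive energy
-/

namespace Vale.Agent.P036h

open Finset
open scoped Pointwise Classical

theorem rpow_m {m : ℝ} (hm : 0 < m) : m ^ (-(3 / 2) : ℝ) = 1 / (m * Real.sqrt m) := by
  rw [Real.rpow_neg hm.le, Real.sqrt_eq_rpow, one_div]
  congr 1
  nth_rewrite 2 [← Real.rpow_one m]
  rw [← Real.rpow_add hm]
  norm_num

/-- Any three points. -/
theorem tri_any {A : Finset Pt} (hA : InSquare A) (h3 : 3 ≤ A.card) : HasTriangle A 1 := by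
  obtain ⟨p, q, r, hp, hq, hr, h1, h2, h3'⟩ := Finset.two_lt_card_iff.1 (by omega : 2 < A.card)
  refine ⟨p, hp, q, hq, r, hr, h1, h3', h2, ?_⟩
  have sp := hA p hp
  have sq := hA q hq
  have sr := hA r hr
  unfold area
  have g : ∀ a b : ℝ, |a| ≤ 1 → |b| ≤ 1 → |a * b| ≤ 1 := by
    intro a b ha hb
    rw [abs_mul]
    calc |a| * |b| ≤ 1 * 1 := mul_le_mul ha hb (abs_nonneg _) (by norm_num)
      _ = 1 := by norm_num
  have k : ∀ x y : ℝ, 0 ≤ x → x ≤ 1 → 0 ≤ y → y ≤ 1 → |x - y| ≤ 1 := by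
    intro x y a b c d
    rw [abs_le]; constructor <;> linarith
  have e1 := g _ _ (k (q 0) (p 0) sq.1.1 sq.1.2 sp.1.1 sp.1.2) (k (r 1) (p 1) sr.2.1 sr.2.2 sp.2.1 sp.2.2)
  have e2 := g _ _ (k (q 1) (p 1) sq.2.1 sq.2.2 sp.2.1 sp.2.2) (k (r 0) (p 0) sr.1.1 sr.1.2 sp.1.1 sp.1.2)
  have := abs_sub ((q 0 - p 0) * (r 1 - p 1)) ((q 1 - p 1) * (r 0 - p 0))
  linarith

theorem one_le_K {P : Finset Pt} (hP : 0 < P.card) {K : ℝ}
    (hK : ((P - P).card : ℝ) ≤ K * P.card) : 1 ≤ K := by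
  have hne : P.Nonempty := Finset.card_pos.1 hP
  have h1 : P.card ≤ (P - P).card := Finset.card_le_card_sub_right hne
  have h2 : (P.card : ℝ) ≤ (P - P).card := by exact_mod_cast h1
  have h3 : (0 : ℝ) < P.card := by exact_mod_cast hP
  by_contra h
  push Not at h
  nlinarith

/-- Sets with a small difference set. -/
theorem doubling {P : Finset Pt} (hP : InSquare P) (h3 : 3 ≤ P.card) {K : ℝ}
    (hK : ((P - P).card : ℝ) ≤ K * P.card) :
    HasTriangle P (432 * K ^ 3 * (P.card : ℝ) ^ (-(3 / 2) : ℝ)) := by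
  have hK1 : 1 ≤ K := one_le_K (by omega) hK
  have hK3 : (1 : ℝ) ≤ K ^ 3 := one_le_pow₀ hK1
  have hm0 : (0 : ℝ) < P.card := by exact_mod_cast (by omega : 0 < P.card)
  have hs0 : 0 < Real.sqrt P.card := Real.sqrt_pos.2 hm0
  have hss : Real.sqrt P.card * Real.sqrt P.card = P.card := Real.mul_self_sqrt hm0.le
  rw [rpow_m hm0]
  rcases lt_or_ge P.card 8 with h8 | h8
  · refine (tri_any hP h3).mono (Finset.Subset.refl _) ?_
    have hm8 : (P.card : ℝ) ≤ 8 := by exact_mod_cast h8.le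
    have hs8 : Real.sqrt P.card ≤ 3 := by
      rw [Real.sqrt_le_left (by norm_num)]; linarith
    have h1 : (P.card : ℝ) * Real.sqrt P.card ≤ 8 * 3 :=
      mul_le_mul hm8 hs8 hs0.le (by norm_num)
    have h2 : 1 / ((P.card : ℝ) * Real.sqrt P.card) ≥ 1 / 24 := by
      apply one_div_le_one_div_of_le (by positivity); linarith
    nlinarith
  · set k := Nat.sqrt (P.card / 8) with hk
    have k1 : 1 ≤ k := by
      rw [hk, Nat.le_sqrt]; omega
    have k2 : k * k ≤ P.card / 8 := Nat.sqrt_le _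
    have k3 : P.card / 8 < (k + 1) * (k + 1) := Nat.lt_succ_sqrt _
    have k4 : 2 * (k + 1) ^ 2 ≤ P.card := by
      have : (k + 1) ^ 2 ≤ 4 * (k * k) := by nlinarith
      omega
    have k5 : P.card ≤ 32 * (k * k) := by
      have : (k + 1) * (k + 1) ≤ 4 * (k * k) := by nlinarith
      omega
    obtain ⟨d, hd, h0, h1, hr⟩ := exists_popular hP (Finset.card_pos.1 (by omega)) hK k4
    have hrpos : 0 < (rep P d).card := by
      rcases Nat.eq_zero_or_pos (rep P d).card with h | h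
      · exfalso
        rw [h, Nat.cast_zero, mul_zero] at hr
        linarith
      · exact h
    refine (tri_pop hP h3 k1 hd h0 h1 hrpos).mono (Finset.Subset.refl _) ?_
    have hk' : (0 : ℝ) < k := by exact_mod_cast k1
    have hr' : (0 : ℝ) < (rep P d).card := by exact_mod_cast hrpos
    have k6 : (P.card : ℝ) ≤ 32 * (k * k) := by exact_mod_cast k5
    have k7 : Real.sqrt P.card ≤ 6 * k := by
      rw [Real.sqrt_le_left (by positivity)]
      nlinarith
    rw [mul_one_div, div_le_div_iff₀ (by positivity) (by positivity)]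
    have h5 : (P.card : ℝ) * Real.sqrt P.card ≤ (18 * K ^ 3 * (rep P d).card) * (6 * k) :=
      mul_le_mul hr k7 hs0.le (by positivity)
    nlinarith

/-- Sets with large additive energy. -/
theorem energy {P : Finset Pt} (hP : InSquare P) (h3 : 3 ≤ P.card) {K : ℝ} (hK1 : 1 ≤ K)
    (hK : (P.card : ℝ) ^ 3 ≤ K * (Finset.addEnergy P P : ℝ)) :
    HasTriangle P (432 * 4096 ^ 3 * 8 * K ^ 14 * (P.card : ℝ) ^ (-(3 / 2) : ℝ)) := by
  obtain ⟨A, hAP, h1, h2⟩ := Vale.Agent.P041.BSG.bsg_aux P K hK1 hK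
  have hn0 : (0 : ℝ) < P.card := by exact_mod_cast (by omega : 0 < P.card)
  have hsn : 0 < Real.sqrt P.card := Real.sqrt_pos.2 hn0
  have hssn : Real.sqrt P.card * Real.sqrt P.card = P.card := Real.mul_self_sqrt hn0.le
  have hK14 : ∀ j, (1 : ℝ) ≤ K ^ j := fun j => one_le_pow₀ hK1
  rcases lt_or_ge A.card 3 with h | h
  · refine (tri_any hP h3).mono (Finset.Subset.refl _) ?_
    have hA2 : (A.card : ℝ) ≤ 2 := by exact_mod_cast (by omega : A.card ≤ 2)
    have hn8 : (P.card : ℝ) ≤ 8 * K := by nlinarith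
    rw [rpow_m hn0, mul_one_div, le_div_iff₀ (by positivity)]
    have hs : Real.sqrt P.card ≤ 8 * K := by
      rw [Real.sqrt_le_left (by positivity)]; nlinarith
    have h5 : (P.card : ℝ) * Real.sqrt P.card ≤ (8 * K) * (8 * K) :=
      mul_le_mul hn8 hs hsn.le (by positivity)
    have h6 : K ^ 2 ≤ K ^ 14 := pow_le_pow_right₀ hK1 (by norm_num)
    nlinarith
  · have hA0 : (0 : ℝ) < A.card := by exact_mod_cast (by omega : 0 < A.card)
    have hsA : 0 < Real.sqrt A.card := Real.sqrt_pos.2 hA0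
    have hsq : InSquare A := fun p hp => hP p (hAP hp)
    refine (doubling hsq h h2).mono hAP ?_
    rw [rpow_m hn0, rpow_m hA0, mul_one_div, mul_one_div,
      div_le_div_iff₀ (by positivity) (by positivity)]
    have hs : Real.sqrt P.card ≤ 2 * K * Real.sqrt A.card := by
      rw [Real.sqrt_le_left (by positivity)]
      have e : (2 * K * Real.sqrt A.card) ^ 2 = 4 * K ^ 2 * A.card := by
        rw [mul_pow, Real.sq_sqrt hA0.le]; ring
      rw [e]
      have : K ≤ K ^ 2 := by nlinarith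
      nlinarith
    have h5 : (P.card : ℝ) * Real.sqrt P.card ≤ (4 * K * A.card) * (2 * K * Real.sqrt A.card) :=
      mul_le_mul h1 hs hsn.le (by positivity)
    calc 432 * (4096 * K ^ 4) ^ 3 * ((P.card : ℝ) * Real.sqrt P.card)
        ≤ 432 * (4096 * K ^ 4) ^ 3 * ((4 * K * A.card) * (2 * K * Real.sqrt A.card)) :=
          mul_le_mul_of_nonneg_left h5 (by positivity)
      _ = 432 * 4096 ^ 3 * 8 * K ^ 14 * (A.card * Real.sqrt A.card) := by ring

end Vale.Agent.P036h
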