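import Vale.Agent.P036h.Defs

/-!
# P036: short popular differences
-/

namespace Vale.Agent.P036h

open Finset
open scoped Pointwise Classical

/-- The cell of a point for the grid of side `1 / k`. -/
noncomputable def cell (k : ℕ) (p : Pt) : ℤ × ℤ := (⌊(k : ℝ) * p 0⌋, ⌊(k : ℝ) * p 1⌋)

/-- The points `p` of `A` with `p + d` in `A`. -/
noncomputable def rep (A : Finset Pt) (d : Pt) : Finset Pt := A.filter (fun p => p + d ∈ A)

/-- Plünnecke–Ruzsa. -/
theorem pl {A : Finset Pt} (hA : A.Nonempty) {K : ℝ}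
    (hK : ((A - A).card : ℝ) ≤ K * A.card) :
    (((A + (A - A) : Finset Pt)).card : ℝ) ≤ K ^ 3 * A.card := by
  have h := Finset.pluennecke_ruzsa_inequality_nsmul_sub_nsmul_sub hA A 2 1
  have hpos : (0 : ℝ) < A.card := by exact_mod_cast hA.card_pos
  have h1 : (A + (A - A) : Finset Pt) ⊆ 2 • A - 1 • A := by
    intro x hx
    obtain ⟨a, ha, d, hd, rfl⟩ := Finset.mem_add.1 hx
    obtain ⟨b, hb, c, hc, rfl⟩ := Finset.mem_sub.1 hd
    refine Finset.mem_sub.2 ⟨a + b, ?_, c, ?_, by abel⟩
    · rw [two_nsmul]; exact Finset.add_mem_add ha hb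
    · rwa [one_nsmul]
  have h2 : (((A + (A - A) : Finset Pt)).card : ℝ) ≤ ((2 • A - 1 • A : Finset Pt).card : ℝ) := by
    exact_mod_cast Finset.card_le_card h1
  have h3 : ((2 • A - 1 • A : Finset Pt).card : ℝ) ≤
      (((A - A).card : ℝ) / A.card) ^ (2 + 1) * A.card := by
    have := (NNRat.cast_le (K := ℝ)).2 h
    push_cast at this
    exact this
  have h4 : ((A - A).card : ℝ) / A.card ≤ K := by
    rw [div_le_iff₀ hpos]; exact hK
  have h5 : (0 : ℝ) ≤ ((A - A).card : ℝ) / A.card := by positivity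
  calc (((A + (A - A) : Finset Pt)).card : ℝ) ≤ _ := h2
    _ ≤ _ := h3
    _ ≤ K ^ 3 * A.card := by
        apply mul_le_mul_of_nonneg_right _ hpos.le
        exact pow_le_pow_left₀ h5 h4 3

/-- The set of short differences. -/
noncomputable def shortD (A : Finset Pt) (k : ℕ) : Finset Pt :=
  (A - A).filter (fun d => |(k : ℝ) * d 0| < 1 ∧ |(k : ℝ) * d 1| < 1)

theorem card_cells_mul (A : Finset Pt) (k : ℕ) :
    (A.image (cell k)).card * (shortD A k).card ≤ 9 * (A + (A - A) : Finset Pt).card := by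
  have hch : ∀ c ∈ A.image (cell k), ∃ x ∈ A, cell k x = c := by
    intro c hc
    obtain ⟨x, hx, h⟩ := Finset.mem_image.1 hc
    exact ⟨x, hx, h⟩
  choose! f hfA hfc using hch
  rw [← Finset.card_product]
  refine Finset.card_le_mul_card_image_of_maps_to
    (f := fun z : (ℤ × ℤ) × Pt => f z.1 + z.2) ?_ 9 ?_
  · rintro ⟨c, d⟩ hz
    rw [Finset.mem_product] at hz
    exact Finset.add_mem_add (hfA c hz.1) (Finset.mem_filter.1 hz.2).1
  · intro y hy
    have hsub : ∀ z ∈ ((A.image (cell k) ×ˢ shortD A k).filter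
        (fun z : (ℤ × ℤ) × Pt => f z.1 + z.2 = y)),
        z.1 ∈ (Finset.Icc (⌊(k : ℝ) * y 0⌋ - 1) (⌊(k : ℝ) * y 0⌋ + 1)) ×ˢ
          (Finset.Icc (⌊(k : ℝ) * y 1⌋ - 1) (⌊(k : ℝ) * y 1⌋ + 1)) := by
      rintro ⟨c, d⟩ hz
      rw [Finset.mem_filter, Finset.mem_product] at hz
      obtain ⟨⟨hc, hd⟩, hy⟩ := hz
      have hc' := hfc c hc
      have hd' := (Finset.mem_filter.1 hd).2
      have e0 : (k : ℝ) * y 0 = k * (f c) 0 + k * d 0 := by
        rw [← hy]; simp [mul_add]
      have e1 : (k : ℝ) * y 1 = k * (f c) 1 + k * d 1 := by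
        rw [← hy]; simp [mul_add]
      have a0 := abs_lt.1 hd'.1
      have a1 := abs_lt.1 hd'.2
      have key : ∀ u v : ℝ, -1 < v → v < 1 → ⌊u + v⌋ - 1 ≤ ⌊u⌋ ∧ ⌊u⌋ ≤ ⌊u + v⌋ + 1 := by
        intro u v h1 h2
        constructor
        · have : ⌊u + v⌋ ≤ ⌊u + 1⌋ := Int.floor_le_floor (by linarith)
          rw [Int.floor_add_one] at this
          omega
        · have : ⌊u⌋ ≤ ⌊u + v + 1⌋ := Int.floor_le_floor (by linarith)
          rw [Int.floor_add_one] at this
          omega
      rw [Finset.mem_product, Finset.mem_Icc, Finset.mem_Icc]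
      have hc0 : c.1 = ⌊(k : ℝ) * (f c) 0⌋ := by
        have := congrArg Prod.fst hc'; exact this.symm
      have hc1 : c.2 = ⌊(k : ℝ) * (f c) 1⌋ := by
        have := congrArg Prod.snd hc'; exact this.symm
      dsimp only
      rw [hc0, hc1, e0, e1]
      exact ⟨key _ _ a0.1 a0.2, key _ _ a1.1 a1.2⟩
    calc ((A.image (cell k) ×ˢ shortD A k).filter
        (fun z : (ℤ × ℤ) × Pt => f z.1 + z.2 = y)).card
        ≤ ((Finset.Icc (⌊(k : ℝ) * y 0⌋ - 1) (⌊(k : ℝ) * y 0⌋ + 1)) ×ˢ
          (Finset.Icc (⌊(k : ℝ) * y 1⌋ - 1) (⌊(k : ℝ) * y 1⌋ + 1))).card := by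
          refine Finset.card_le_card_of_injOn Prod.fst hsub ?_
          rintro ⟨c, d⟩ h1 ⟨c', d'⟩ h2 h
          simp only at h
          subst h
          rw [Finset.mem_coe, Finset.mem_filter] at h1 h2
          have : f c + d = f c + d' := h1.2.trans h2.2.symm
          rw [add_left_cancel this]
      _ = 9 := by
          rw [Finset.card_product, Int.card_Icc, Int.card_Icc]
          have h1 : ∀ a : ℤ, (a + 1 + 1 - (a - 1)).toNat = 3 := by
            intro a; have : a + 1 + 1 - (a - 1) = 3 := by ring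
            rw [this]; rfl
          rw [h1, h1]


/-- The pairs of points in the same cell. -/
noncomputable def close (A : Finset Pt) (k : ℕ) : Finset (Pt × Pt) :=
  (A ×ˢ A).filter (fun z => cell k z.1 = cell k z.2)

theorem close_ge (A : Finset Pt) (k : ℕ) :
    A.card ^ 2 ≤ (A.image (cell k)).card * (close A k).card := by
  have h1 : A.card = ∑ c ∈ A.image (cell k), (A.filter (fun x => cell k x = c)).card :=
    Finset.card_eq_sum_card_image (cell k) A
  have h2 : (close A k).card =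
      ∑ c ∈ A.image (cell k), (A.filter (fun x => cell k x = c)).card ^ 2 := by
    rw [Finset.card_eq_sum_card_fiberwise (f := fun z : Pt × Pt => cell k z.1)
      (t := A.image (cell k))]
    · refine Finset.sum_congr rfl ?_
      intro c _
      rw [sq, ← Finset.card_product]
      congr 1
      ext ⟨x, y⟩
      simp only [close, Finset.mem_filter, Finset.mem_product]
      constructor
      · rintro ⟨⟨⟨h1, h2⟩, h3⟩, h4⟩
        exact ⟨⟨h1, h4⟩, h2, h3 ▸ h4⟩
      · rintro ⟨⟨h1, h2⟩, h3, h4⟩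
        exact ⟨⟨⟨h1, h3⟩, h2.trans h4.symm⟩, h2⟩
    · intro z hz
      have hz' := (Finset.mem_product.1 (Finset.mem_filter.1 hz).1).1
      exact Finset.mem_image_of_mem _ hz'
  rw [h2]
  conv_lhs => rw [h1]
  exact sq_sum_le_card_mul_sum_sq

theorem card_cells_le {A : Finset Pt} (hA : InSquare A) (k : ℕ) :
    (A.image (cell k)).card ≤ (k + 1) ^ 2 := by
  have hsub : A.image (cell k) ⊆ (Finset.Icc (0 : ℤ) k) ×ˢ (Finset.Icc (0 : ℤ) k) := by
    intro c hc
    obtain ⟨x, hx, rfl⟩ := Finset.mem_image.1 hc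
    have hs := hA x hx
    have hk : (0 : ℝ) ≤ k := Nat.cast_nonneg k
    have key : ∀ u : ℝ, 0 ≤ u → u ≤ 1 → (0 : ℤ) ≤ ⌊(k : ℝ) * u⌋ ∧ ⌊(k : ℝ) * u⌋ ≤ (k : ℤ) := by
      intro u h0 h1
      refine ⟨Int.floor_nonneg.2 (by positivity), ?_⟩
      have : ⌊(k : ℝ) * u⌋ ≤ ⌊((k : ℤ) : ℝ)⌋ := Int.floor_le_floor (by
        push_cast; nlinarith)
      rwa [Int.floor_intCast] at this
    rw [Finset.mem_product, Finset.mem_Icc, Finset.mem_Icc]
    exact ⟨key _ hs.1.1 hs.1.2, key _ hs.2.1 hs.2.2⟩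
  refine (Finset.card_le_card hsub).trans ?_
  rw [Finset.card_product, Int.card_Icc]
  have : ((k : ℤ) + 1 - 0).toNat = k + 1 := by omega
  rw [this, sq]

/-- A short difference with many representations, in terms of the number of short
differences. -/
theorem exists_pop0 {A : Finset Pt} (hA : InSquare A) (hne : A.Nonempty)
    {k : ℕ} (hk : 2 * (k + 1) ^ 2 ≤ A.card) :
    ∃ d : Pt, d ≠ 0 ∧ |(k : ℝ) * d 0| < 1 ∧ |(k : ℝ) * d 1| < 1 ∧
      (A.card : ℝ) ^ 2 ≤
        2 * ((rep A d).card * ((A.image (cell k)).card * (shortD A k).card)) := by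
  set N := (A.image (cell k)).card with hN
  set m := A.card with hm
  have hmpos : 0 < m := hne.card_pos
  have hNpos : 0 < N := Finset.card_pos.2 (hne.image _)
  have hN2 : 2 * N ≤ m := le_trans (Nat.mul_le_mul_left 2 (card_cells_le hA k)) hk
  set S := (close A k).filter (fun z => z.1 ≠ z.2) with hS
  have hScard : (close A k).card ≤ S.card + m := by
    have h : S.card + ((close A k).filter (fun z : Pt × Pt => ¬ z.1 ≠ z.2)).card
        = (close A k).card := by
      rw [hS]
      convert Finset.card_filter_add_card_filter_not (s := close A k)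
        (fun z : Pt × Pt => z.1 ≠ z.2)
    have h2 : ((close A k).filter (fun z : Pt × Pt => ¬ z.1 ≠ z.2)).card ≤ m := by
      refine Finset.card_le_card_of_injOn Prod.fst ?_ ?_
      · intro z hz
        rw [Finset.mem_coe, Finset.mem_filter] at hz
        exact (Finset.mem_product.1 (Finset.mem_filter.1 hz.1).1).1
      · rintro ⟨a, b⟩ h1 ⟨a', b'⟩ h2 h
        rw [Finset.mem_coe, Finset.mem_filter] at h1 h2
        simp only [ne_eq, not_not] at h1 h2 h
        rw [← h1.2, ← h2.2, h]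
    omega
  have hmaps : ∀ z ∈ S, z.2 - z.1 ∈ (shortD A k).erase 0 := by
    intro z hz
    obtain ⟨hz1, hz2⟩ := Finset.mem_filter.1 hz
    obtain ⟨hz3, hz4⟩ := Finset.mem_filter.1 hz1
    obtain ⟨hz5, hz6⟩ := Finset.mem_product.1 hz3
    refine Finset.mem_erase.2 ⟨sub_ne_zero.2 (Ne.symm hz2), Finset.mem_filter.2
      ⟨Finset.sub_mem_sub hz6 hz5, ?_, ?_⟩⟩
    · have := Int.abs_sub_lt_one_of_floor_eq_floor (congrArg Prod.fst hz4).symm
      simpa [mul_sub] using this
    · have := Int.abs_sub_lt_one_of_floor_eq_floor (congrArg Prod.snd hz4).symm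
      simpa [mul_sub] using this
  -- pigeonhole
  have hSpos : 0 < S.card := by
    have h := close_ge A k
    by_contra h0
    have h0' : S.card = 0 := by omega
    rw [h0', zero_add] at hScard
    have : m ^ 2 ≤ N * m := h.trans (Nat.mul_le_mul_left _ hScard)
    nlinarith
  have hDne : ((shortD A k).erase 0).Nonempty := by
    obtain ⟨z, hz⟩ := Finset.card_pos.1 hSpos
    exact ⟨_, hmaps z hz⟩
  obtain ⟨d, hd, hdc⟩ := Finset.exists_le_card_fiber_of_nsmul_le_card_of_maps_to
    (s := S) (t := (shortD A k).erase 0) (f := fun z => z.2 - z.1)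
    (b := (S.card : ℝ) / ((shortD A k).erase 0).card) hmaps hDne (by
      have : (0 : ℝ) < ((shortD A k).erase 0).card := by exact_mod_cast hDne.card_pos
      rw [nsmul_eq_mul]
      field_simp
      exact le_rfl)
  obtain ⟨hd0, hd1⟩ := Finset.mem_erase.1 hd
  obtain ⟨_, hd2⟩ := Finset.mem_filter.1 hd1
  refine ⟨d, hd0, hd2.1, hd2.2, ?_⟩
  have hfib : (S.filter (fun z => z.2 - z.1 = d)).card ≤ (rep A d).card := by
    refine Finset.card_le_card_of_injOn Prod.fst ?_ ?_
    · intro z hz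
      rw [Finset.mem_coe, Finset.mem_filter] at hz
      obtain ⟨hz5, hz6⟩ := Finset.mem_product.1 (Finset.mem_filter.1 (Finset.mem_filter.1 hz.1).1).1
      refine Finset.mem_filter.2 ⟨hz5, ?_⟩
      have : z.1 + d = z.2 := by rw [← hz.2]; abel
      rwa [this]
    · rintro ⟨a, b⟩ h1 ⟨a', b'⟩ h2 h
      rw [Finset.mem_coe, Finset.mem_filter] at h1 h2
      simp only at h h1 h2
      subst h
      have : b = b' := by
        have e := h1.2.trans h2.2.symm
        exact sub_left_injective e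
      rw [this]
  -- numbers
  have c1 : (m : ℝ) ^ 2 ≤ N * (close A k).card := by exact_mod_cast close_ge A k
  have c2 : ((close A k).card : ℝ) ≤ S.card + m := by exact_mod_cast hScard
  have c4 : (2 : ℝ) * N ≤ m := by exact_mod_cast hN2
  have c5 : (((shortD A k).erase 0).card : ℝ) ≤ (shortD A k).card := by
    exact_mod_cast Finset.card_erase_le
  have c6 : (0 : ℝ) < ((shortD A k).erase 0).card := by exact_mod_cast hDne.card_pos
  have c7 : (S.card : ℝ) ≤ (rep A d).card * ((shortD A k).erase 0).card := by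
    have h1 : (S.card : ℝ) / ((shortD A k).erase 0).card ≤ (rep A d).card :=
      hdc.trans (by exact_mod_cast hfib)
    rwa [div_le_iff₀ c6] at h1
  have c8 : (0 : ℝ) < N := by exact_mod_cast hNpos
  have c9 : (0 : ℝ) < m := by exact_mod_cast hmpos
  have c10 : (0 : ℝ) ≤ (rep A d).card := Nat.cast_nonneg _
  have c11 : (m : ℝ) ^ 2 ≤ N * ((rep A d).card * (shortD A k).card + m) := by
    calc (m : ℝ) ^ 2 ≤ N * (close A k).card := c1
      _ ≤ N * ((rep A d).card * (shortD A k).card + m) := by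
        apply mul_le_mul_of_nonneg_left _ c8.le
        calc ((close A k).card : ℝ) ≤ S.card + m := c2
          _ ≤ _ := by
            have : (S.card : ℝ) ≤ (rep A d).card * (shortD A k).card :=
              c7.trans (mul_le_mul_of_nonneg_left c5 c10)
            linarith
  have h1 : (N : ℝ) * ((rep A d).card * (shortD A k).card + m) =
      (rep A d).card * (N * (shortD A k).card) + m * N := by ring
  rw [h1] at c11
  nlinarith

/-- A short difference with many representations. -/
theorem exists_popular {A : Finset Pt} (hA : InSquare A) (hne : A.Nonempty) {K : ℝ}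
    (hK : ((A - A).card : ℝ) ≤ K * A.card) {k : ℕ} (hk : 2 * (k + 1) ^ 2 ≤ A.card) :
    ∃ d : Pt, d ≠ 0 ∧ |(k : ℝ) * d 0| < 1 ∧ |(k : ℝ) * d 1| < 1 ∧
      (A.card : ℝ) ≤ 18 * K ^ 3 * (rep A d).card := by
  obtain ⟨d, hd, h0, h1, h2⟩ := exists_pop0 hA hne hk
  refine ⟨d, hd, h0, h1, ?_⟩
  have c9 : (0 : ℝ) < A.card := by exact_mod_cast hne.card_pos
  have c10 : (0 : ℝ) ≤ (rep A d).card := Nat.cast_nonneg _
  have c3 : ((A.image (cell k)).card : ℝ) * (shortD A k).card ≤ 9 * (K ^ 3 * A.card) := by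
    have := card_cells_mul A k
    have h' : ((A.image (cell k)).card : ℝ) * (shortD A k).card
        ≤ 9 * ((A + (A - A) : Finset Pt).card : ℝ) := by
      exact_mod_cast this
    exact h'.trans (mul_le_mul_of_nonneg_left (pl hne hK) (by norm_num))
  have c12 := mul_le_mul_of_nonneg_left c3 c10
  have c13 : (A.card : ℝ) * A.card ≤ A.card * (18 * K ^ 3 * (rep A d).card) := by nlinarith
  exact le_of_mul_le_mul_left c13 c9

end Vale.Agent.P036h
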