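import Vale.Agent.P036h.Defs

/-!
# P036: polygonal paths
-/

namespace Vale.Agent.P036h

open Finset
open scoped Classical

theorem bad_lt {N : ℕ} (hN : 0 < N) {f : ℕ → ℝ} (hf : ∀ i, 0 ≤ f i) {S : ℝ}
    (hS : ∑ i ∈ range N, f i ≤ S) :
    3 * ((range N).filter (fun i => 3 * S / N < f i)).card < N := by
  by_contra hcon
  push Not at hcon
  set B := (range N).filter (fun i => 3 * S / N < f i) with hB
  have hS0 : 0 ≤ S := (Finset.sum_nonneg fun i _ => hf i).trans hS
  have hBne : B.Nonempty := by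
    rw [← Finset.card_pos]; omega
  have h1 : ∑ i ∈ B, f i ≤ S :=
    (Finset.sum_le_sum_of_subset_of_nonneg (Finset.filter_subset _ _)
      (fun i _ _ => hf i)).trans hS
  have h2 : ∑ _i ∈ B, (3 * S / N) < ∑ i ∈ B, f i :=
    Finset.sum_lt_sum_of_nonempty hBne (fun i hi => (Finset.mem_filter.1 hi).2)
  rw [Finset.sum_const, nsmul_eq_mul] at h2
  have hN' : (0 : ℝ) < N := by exact_mod_cast hN
  have h3 : (N : ℝ) ≤ 3 * B.card := by exact_mod_cast hcon
  have h4 : S ≤ B.card * (3 * S / N) := by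
    rw [mul_div_assoc', le_div_iff₀ hN']
    nlinarith
  linarith

theorem area_eq (p q r : Pt) :
    area p q r = (dist p q * dist q r * Real.sin (InnerProductGeometry.angle (q - p) (r - q))) / 2 := by
  have h := InnerProductGeometry.sin_angle_mul_norm_mul_norm (q - p) (r - q)
  have e : dist p q * dist q r * Real.sin (InnerProductGeometry.angle (q - p) (r - q)) =
      Real.sin (InnerProductGeometry.angle (q - p) (r - q)) * (‖q - p‖ * ‖r - q‖) := by
    rw [dist_comm p q, dist_comm q r, dist_eq_norm, dist_eq_norm]; ring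
  rw [e, h]
  unfold area
  congr 1
  rw [← Real.sqrt_sq_eq_abs]
  congr 1
  simp only [PiLp.inner_apply, Fin.sum_univ_two, RCLike.inner_apply, conj_trivial,
    PiLp.sub_apply]
  ring

theorem path_tri {n : ℕ} (hn : 3 ≤ n) (p : ℕ → Pt) :
    ∃ i, i + 2 < n ∧ area (p i) (p (i + 1)) (p (i + 2)) ≤
      365 * pathLen n p ^ 2 * pathTurn n p / (n : ℝ) ^ 3 := by
  set N := n - 2 with hN
  have hNpos : 0 < N := by omega
  set L := pathLen n p with hL
  set T := pathTurn n p with hT
  have hL0 : 0 ≤ L := Finset.sum_nonneg fun i _ => dist_nonneg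
  have hT0 : 0 ≤ T := Finset.sum_nonneg fun i _ => InnerProductGeometry.angle_nonneg _ _
  have ha : ∑ i ∈ range N, dist (p i) (p (i + 1)) ≤ L := by
    refine Finset.sum_le_sum_of_subset_of_nonneg ?_ (fun i _ _ => dist_nonneg)
    intro i hi
    rw [Finset.mem_range] at hi ⊢
    omega
  have hb : ∑ i ∈ range N, dist (p (i + 1)) (p (i + 2)) ≤ L := by
    have h1 : L = ∑ i ∈ range (N + 1), dist (p i) (p (i + 1)) := by
      rw [hL, pathLen]
      congr 2
      omega
    rw [h1, Finset.sum_range_succ']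
    have : (0 : ℝ) ≤ dist (p 0) (p (0 + 1)) := dist_nonneg
    linarith
  have hc : ∑ i ∈ range N, InnerProductGeometry.angle (p (i + 1) - p i) (p (i + 2) - p (i + 1))
      ≤ T := le_rfl
  have A := bad_lt hNpos (fun i => dist_nonneg) ha
  have B := bad_lt hNpos (fun i => dist_nonneg) hb
  have C := bad_lt hNpos (fun i => InnerProductGeometry.angle_nonneg _ _) hc
  set X := (range N).filter (fun i => 3 * L / N < dist (p i) (p (i + 1)))
  set Y := (range N).filter (fun i => 3 * L / N < dist (p (i + 1)) (p (i + 2)))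
  set Z := (range N).filter (fun i => 3 * T / N <
    InnerProductGeometry.angle (p (i + 1) - p i) (p (i + 2) - p (i + 1)))
  have hcard : (X ∪ Y ∪ Z).card < (range N).card := by
    rw [Finset.card_range]
    have h1 := Finset.card_union_le (X ∪ Y) Z
    have h2 := Finset.card_union_le X Y
    omega
  obtain ⟨i, hi, hiX⟩ := Finset.exists_mem_notMem_of_card_lt_card hcard
  rw [Finset.mem_union, Finset.mem_union] at hiX
  push Not at hiX
  obtain ⟨⟨h1, h2⟩, h3⟩ := hiX
  have h1' : dist (p i) (p (i + 1)) ≤ 3 * L / N := by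
    by_contra h; push Not at h; exact h1 (Finset.mem_filter.2 ⟨hi, h⟩)
  have h2' : dist (p (i + 1)) (p (i + 2)) ≤ 3 * L / N := by
    by_contra h; push Not at h; exact h2 (Finset.mem_filter.2 ⟨hi, h⟩)
  have h3' : InnerProductGeometry.angle (p (i + 1) - p i) (p (i + 2) - p (i + 1)) ≤ 3 * T / N := by
    by_contra h; push Not at h; exact h3 (Finset.mem_filter.2 ⟨hi, h⟩)
  rw [Finset.mem_range] at hi
  refine ⟨i, by omega, ?_⟩
  rw [area_eq]
  have hN' : (0 : ℝ) < N := by exact_mod_cast hNpos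
  have hn' : (0 : ℝ) < n := by exact_mod_cast (by omega : 0 < n)
  have hang := InnerProductGeometry.angle_nonneg (p (i + 1) - p i) (p (i + 2) - p (i + 1))
  have hsin := Real.sin_le hang
  have hsin' : Real.sin (InnerProductGeometry.angle (p (i + 1) - p i) (p (i + 2) - p (i + 1)))
      ≤ 3 * T / N := hsin.trans h3'
  have hsin0 := InnerProductGeometry.sin_angle_nonneg (p (i + 1) - p i) (p (i + 2) - p (i + 1))
  have hnN : (n : ℝ) ≤ 3 * N := by exact_mod_cast (by omega : n ≤ 3 * N)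
  have hx : dist (p i) (p (i + 1)) * dist (p (i + 1)) (p (i + 2)) ≤ (3 * L / N) * (3 * L / N) :=
    mul_le_mul h1' h2' dist_nonneg (by positivity)
  have hy : dist (p i) (p (i + 1)) * dist (p (i + 1)) (p (i + 2)) *
      Real.sin (InnerProductGeometry.angle (p (i + 1) - p i) (p (i + 2) - p (i + 1))) ≤
      (3 * L / N) * (3 * L / N) * (3 * T / N) :=
    mul_le_mul hx hsin' hsin0 (by positivity)
  have hz : (3 * L / N) * (3 * L / N) * (3 * T / N) / 2 ≤ 365 * L ^ 2 * T / (n : ℝ) ^ 3 := by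
    have e : (3 * L / N) * (3 * L / N) * (3 * T / N) / 2 = (27 / 2) * (L ^ 2 * T) / (N : ℝ) ^ 3 := by
      field_simp
      ring
    rw [e, div_le_div_iff₀ (by positivity) (by positivity)]
    have h5 : (n : ℝ) ^ 3 ≤ (3 * N) ^ 3 := pow_le_pow_left₀ hn'.le hnN 3
    have h6 : 0 ≤ L ^ 2 * T := by positivity
    have h7 : (n : ℝ) ^ 3 ≤ 27 * (N : ℝ) ^ 3 := by
      calc (n : ℝ) ^ 3 ≤ (3 * N) ^ 3 := h5
        _ = 27 * (N : ℝ) ^ 3 := by ring
    have h8 : 0 ≤ (N : ℝ) ^ 3 := by positivity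
    calc 27 / 2 * (L ^ 2 * T) * (n : ℝ) ^ 3 ≤ 27 / 2 * (L ^ 2 * T) * (27 * (N : ℝ) ^ 3) :=
          mul_le_mul_of_nonneg_left h7 (by positivity)
      _ ≤ 365 * L ^ 2 * T * (N : ℝ) ^ 3 := by
          have : 0 ≤ (L ^ 2 * T) * (N : ℝ) ^ 3 := by positivity
          nlinarith
  linarith

end Vale.Agent.P036h
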