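import Vale.Agent.P036h.Doub2
import Vale.Agent.P036h.Path

/-!
# P036: the four statements
-/

namespace Vale.Agent.P036h

open Finset
open scoped Pointwise Classical

/-- Few short differences. -/
theorem few_short {P : Finset Pt} (hP : InSquare P) {k : ℕ} (hk1 : 1 ≤ k)
    (hk : 2 * (k + 1) ^ 2 ≤ P.card) :
    HasTriangle P (32 * k * ((P - P).filter
      (fun d => |d 0| < 1 / (k : ℝ) ∧ |d 1| < 1 / (k : ℝ))).card / (P.card : ℝ) ^ 2) := by
  have hk0 : (0 : ℝ) < k := by exact_mod_cast hk1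
  have hcard : 8 ≤ P.card := by nlinarith
  have hn0 : (0 : ℝ) < P.card := by exact_mod_cast (by omega : 0 < P.card)
  have e : (P - P).filter (fun d => |d 0| < 1 / (k : ℝ) ∧ |d 1| < 1 / (k : ℝ)) = shortD P k := by
    unfold shortD
    apply Finset.filter_congr
    intro d _
    have h : ∀ x : ℝ, |x| < 1 / (k : ℝ) ↔ |(k : ℝ) * x| < 1 := by
      intro x
      rw [abs_mul, abs_of_pos hk0, lt_div_iff₀ hk0, mul_comm]
    rw [h, h]
  rw [e]
  obtain ⟨d, hd, h0, h1, h2⟩ := exists_pop0 hP (Finset.card_pos.1 (by omega)) hk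
  have hrpos : 0 < (rep P d).card := by
    rcases Nat.eq_zero_or_pos (rep P d).card with h | h
    · exfalso
      rw [h, Nat.cast_zero, zero_mul, mul_zero] at h2
      nlinarith
    · exact h
  refine (tri_pop hP (by omega) hk1 hd h0 h1 hrpos).mono (Finset.Subset.refl _) ?_
  have hr' : (0 : ℝ) < (rep P d).card := by exact_mod_cast hrpos
  have hN : ((P.image (cell k)).card : ℝ) ≤ 4 * (k : ℝ) ^ 2 := by
    have h3 : (P.image (cell k)).card ≤ (k + 1) ^ 2 := card_cells_le hP k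
    have h4 : (k + 1) ^ 2 ≤ 4 * k ^ 2 := by nlinarith
    exact_mod_cast h3.trans h4
  have hD0 : (0 : ℝ) ≤ (shortD P k).card := Nat.cast_nonneg _
  rw [div_le_div_iff₀ (by positivity) (by positivity)]
  have h5 : (P.card : ℝ) ^ 2 ≤ 2 * ((rep P d).card * (4 * (k : ℝ) ^ 2 * (shortD P k).card)) := by
    refine h2.trans ?_
    have := mul_le_mul_of_nonneg_right hN hD0
    have := mul_le_mul_of_nonneg_left this hr'.le
    linarith
  calc 4 * (P.card : ℝ) ^ 2 ≤
      4 * (2 * ((rep P d).card * (4 * (k : ℝ) ^ 2 * (shortD P k).card))) :=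
        mul_le_mul_of_nonneg_left h5 (by norm_num)
    _ = 32 * k * (shortD P k).card * (k * (rep P d).card) := by ring

/-- Large additive energy, exponent form. -/
theorem energy_exp {P : Finset Pt} (hP : InSquare P) (h3 : 3 ≤ P.card) {δ : ℝ} (hδ : 0 ≤ δ)
    (hE : (P.card : ℝ) ^ (3 - δ) ≤ (Finset.addEnergy P P : ℝ)) :
    HasTriangle P (2 ^ 48 * (P.card : ℝ) ^ (14 * δ - 3 / 2)) := by
  have hn0 : (0 : ℝ) < P.card := by exact_mod_cast (by omega : 0 < P.card)
  have hn1 : (1 : ℝ) ≤ P.card := by exact_mod_cast (by omega : 1 ≤ P.card)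
  have hK1 : (1 : ℝ) ≤ (P.card : ℝ) ^ δ := Real.one_le_rpow hn1 hδ
  have h := energy hP h3 (K := (P.card : ℝ) ^ δ) hK1 (by
    have e : (P.card : ℝ) ^ 3 = (P.card : ℝ) ^ δ * (P.card : ℝ) ^ (3 - δ) := by
      rw [← Real.rpow_add hn0, ← Real.rpow_natCast]
      congr 1
      push_cast
      ring
    rw [e]
    exact mul_le_mul_of_nonneg_left hE (by positivity))
  refine h.mono (Finset.Subset.refl _) ?_
  have e : ((P.card : ℝ) ^ δ) ^ 14 * (P.card : ℝ) ^ (-(3 / 2) : ℝ) =
      (P.card : ℝ) ^ (14 * δ - 3 / 2) := by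
    rw [← Real.rpow_natCast, ← Real.rpow_mul hn0.le, ← Real.rpow_add hn0]
    congr 1
    push_cast
    ring
  rw [mul_assoc, e]
  apply mul_le_mul_of_nonneg_right _ (by positivity)
  norm_num

/-- Sets covered by `k` polygonal paths. -/
theorem paths {P : Finset Pt} {k : ℕ} (hk : 1 ≤ k) (m : Fin k → ℕ) (p : Fin k → ℕ → Pt)
    {L T : ℝ} (hinj : ∀ j, Set.InjOn (p j) (Set.Iio (m j)))
    (hP : P = Finset.univ.biUnion (fun j => (range (m j)).image (p j)))
    (hL : ∀ j, pathLen (m j) (p j) ≤ L) (hT : ∀ j, pathTurn (m j) (p j) ≤ T)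
    (hn : 3 * k ≤ P.card) :
    HasTriangle P (365 * (L ^ 2 * T * (k : ℝ) ^ 3) / (P.card : ℝ) ^ 3) := by
  have hk0 : (0 : ℝ) < k := by exact_mod_cast hk
  have hn0 : 0 < P.card := by omega
  have hn0' : (0 : ℝ) < P.card := by exact_mod_cast hn0
  obtain ⟨j, hj⟩ : ∃ j, P.card ≤ k * m j := by
    by_contra hcon
    push Not at hcon
    have h1 : P.card ≤ ∑ j, m j := by
      rw [hP]
      refine Finset.card_biUnion_le.trans (Finset.sum_le_sum fun j _ => ?_)
      exact Finset.card_image_le.trans (by rw [Finset.card_range])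
    have h2 : k * ∑ j, m j < k * P.card := by
      rw [Finset.mul_sum]
      have : Nonempty (Fin k) := ⟨⟨0, by omega⟩⟩
      calc ∑ j, k * m j < ∑ _j : Fin k, P.card :=
            Finset.sum_lt_sum_of_nonempty Finset.univ_nonempty (fun j _ => hcon j)
        _ = k * P.card := by simp
    have h3 := Nat.mul_le_mul_left k h1
    omega
  have hm3 : 3 ≤ m j := by
    have : 3 * k ≤ k * m j := hn.trans hj
    have h' : k * 3 ≤ k * m j := by linarith
    exact Nat.le_of_mul_le_mul_left h' (by omega)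
  obtain ⟨i, hi, hA⟩ := path_tri hm3 (p j)
  have hsub : (range (m j)).image (p j) ⊆ P := by
    rw [hP]
    exact Finset.subset_biUnion_of_mem (fun j => (range (m j)).image (p j)) (Finset.mem_univ j)
  have hmem : ∀ l, l < m j → p j l ∈ P := fun l hl =>
    hsub (Finset.mem_image_of_mem _ (Finset.mem_range.2 hl))
  have hne : ∀ a b, a < m j → b < m j → a ≠ b → p j a ≠ p j b := fun a b ha hb hab h =>
    hab (hinj j ha hb h)
  refine ⟨p j i, hmem i (by omega), p j (i + 1), hmem _ (by omega), p j (i + 2), hmem _ (by omega),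
    hne _ _ (by omega) (by omega) (by omega), hne _ _ (by omega) (by omega) (by omega),
    hne _ _ (by omega) (by omega) (by omega), hA.trans ?_⟩
  have hm0 : (0 : ℝ) < m j := by exact_mod_cast (by omega : 0 < m j)
  have hL0 : 0 ≤ pathLen (m j) (p j) := Finset.sum_nonneg fun i _ => dist_nonneg
  have hT0 : 0 ≤ pathTurn (m j) (p j) :=
    Finset.sum_nonneg fun i _ => InnerProductGeometry.angle_nonneg _ _
  have h1 : pathLen (m j) (p j) ^ 2 ≤ L ^ 2 := pow_le_pow_left₀ hL0 (hL j) 2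
  have h2 : pathLen (m j) (p j) ^ 2 * pathTurn (m j) (p j) ≤ L ^ 2 * T :=
    mul_le_mul h1 (hT j) hT0 (by positivity)
  have h3 : (P.card : ℝ) ≤ k * m j := by exact_mod_cast hj
  have h4 : (P.card : ℝ) ^ 3 ≤ (k * m j) ^ 3 := pow_le_pow_left₀ hn0'.le h3 3
  have h5 : 0 ≤ pathLen (m j) (p j) ^ 2 * pathTurn (m j) (p j) := by positivity
  rw [div_le_div_iff₀ (by positivity) (by positivity)]
  calc 365 * pathLen (m j) (p j) ^ 2 * pathTurn (m j) (p j) * (P.card : ℝ) ^ 3
      = 365 * ((pathLen (m j) (p j) ^ 2 * pathTurn (m j) (p j)) * (P.card : ℝ) ^ 3) := by ring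
    _ ≤ 365 * ((L ^ 2 * T) * (k * m j) ^ 3) := by
        apply mul_le_mul_of_nonneg_left _ (by norm_num)
        exact mul_le_mul h2 h4 (by positivity) (h5.trans h2)
    _ = 365 * (L ^ 2 * T * (k : ℝ) ^ 3) * (m j : ℝ) ^ 3 := by ring

/-- The almost inverse square form for sets covered by few short and slowly turning paths. -/
theorem paths_eps {P : Finset Pt} {k : ℕ} (hk : 1 ≤ k) (m : Fin k → ℕ) (p : Fin k → ℕ → Pt)
    {L T : ℝ} (hinj : ∀ j, Set.InjOn (p j) (Set.Iio (m j)))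
    (hP : P = Finset.univ.biUnion (fun j => (range (m j)).image (p j)))
    (hL : ∀ j, pathLen (m j) (p j) ≤ L) (hT : ∀ j, pathTurn (m j) (p j) ≤ T)
    (hn : 3 * k ≤ P.card) {ε : ℝ}
    (hε : L ^ 2 * T * (k : ℝ) ^ 3 ≤ (P.card : ℝ) ^ (1 + ε)) :
    HasTriangle P (365 * (P.card : ℝ) ^ (-2 + ε)) := by
  have hn0 : (0 : ℝ) < P.card := by exact_mod_cast (by omega : 0 < P.card)
  refine (paths hk m p hinj hP hL hT hn).mono (Finset.Subset.refl _) ?_
  rw [div_le_iff₀ (by positivity), mul_assoc 365 ((P.card : ℝ) ^ (-2 + ε))]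
  refine mul_le_mul_of_nonneg_left ?_ (by norm_num)
  refine hε.trans (le_of_eq ?_)
  rw [← Real.rpow_natCast, ← Real.rpow_add hn0]
  congr 1
  push_cast
  ring

end Vale.Agent.P036h
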