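import Vale.Agent.P036h.Doub2

/-!
# P036: sets of bounded doubling contain three equidistant collinear points
-/

namespace Vale.Agent.P036h

open Finset SimpleGraph SimpleGraph.TripartiteFromTriangles
open scoped Pointwise Classical

/-- The triangle indices: `(x, x + a, x + a + a)` with `x, a` in `P`. -/
noncomputable def tri (P : Finset Pt) :
    Finset ({x // x ∈ P} × {x // x ∈ P + P} × {x // x ∈ P + P + P}) :=
  Finset.univ.filter (fun w => ∃ a ∈ P, (w.2.1 : Pt) = w.1 + a ∧ (w.2.2 : Pt) = w.1 + a + a)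

theorem two_inj {a b : Pt} (h : a + a = b + b) : a = b := by
  have h2 : (2 : ℝ) • a = (2 : ℝ) • b := by rw [two_smul, two_smul]; exact h
  exact smul_right_injective Pt (by norm_num : (2 : ℝ) ≠ 0) h2

instance tri_disj (P : Finset Pt) : ExplicitDisjoint (tri P) where
  inj₀ := by
    intro a b c a' h1 h2
    obtain ⟨p, hp, h3, h4⟩ := (Finset.mem_filter.1 h1).2
    obtain ⟨q, hq, h5, h6⟩ := (Finset.mem_filter.1 h2).2
    dsimp only at h3 h4 h5 h6
    have e1 : (c : Pt) = b + p := by rw [h4, h3]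
    have e2 : (c : Pt) = b + q := by rw [h6, h5]
    have e3 : p = q := add_left_cancel (e1.symm.trans e2)
    subst e3
    exact Subtype.ext (add_right_cancel (h3.symm.trans h5))
  inj₁ := by
    intro a b c b' h1 h2
    obtain ⟨p, hp, h3, h4⟩ := (Finset.mem_filter.1 h1).2
    obtain ⟨q, hq, h5, h6⟩ := (Finset.mem_filter.1 h2).2
    dsimp only at h3 h4 h5 h6
    have e1 : (a : Pt) + (p + p) = a + (q + q) := by rw [← add_assoc, ← add_assoc, ← h4, ← h6]
    have e3 : p = q := two_inj (add_left_cancel e1)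
    subst e3
    exact Subtype.ext (h3.trans h5.symm)
  inj₂ := by
    intro a b c c' h1 h2
    obtain ⟨p, hp, h3, h4⟩ := (Finset.mem_filter.1 h1).2
    obtain ⟨q, hq, h5, h6⟩ := (Finset.mem_filter.1 h2).2
    dsimp only at h3 h4 h5 h6
    have e3 : p = q := add_left_cancel (h3.symm.trans h5)
    subst e3
    exact Subtype.ext (h4.trans h6.symm)

theorem tri_noacc {P : Finset Pt} (hP : ThreeAPFree (P : Set Pt)) : NoAccidental (tri P) where
  eq_or_eq_or_eq := by
    intro a a' b b' c c' ha hb hc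
    obtain ⟨r, hr, h1, h2⟩ := (Finset.mem_filter.1 ha).2
    obtain ⟨q, hq, h3, h4⟩ := (Finset.mem_filter.1 hb).2
    obtain ⟨p, hp, h5, h6⟩ := (Finset.mem_filter.1 hc).2
    dsimp only at h1 h2 h3 h4 h5 h6
    left
    have e1 : (c : Pt) = b + r := by rw [h2, h1]
    have e2 : (a : Pt) + (p + r) = a + (q + q) := by
      rw [← add_assoc, ← h5, ← e1, h4, add_assoc]
    have e3 : p + r = q + q := add_left_cancel e2
    have e4 : p = q := hP (by exact_mod_cast hp) (by exact_mod_cast hq) (by exact_mod_cast hr) e3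
    have e5 : r = q := by
      rw [e4] at e3
      exact add_left_cancel e3
    have e6 : (a : Pt) + q = a' + q := by
      calc (a : Pt) + q = a + p := by rw [e4]
        _ = b := h5.symm
        _ = a' + r := h1
        _ = a' + q := by rw [e5]
    exact Subtype.ext (add_right_cancel e6)

theorem card_tri (P : Finset Pt) : (tri P).card = P.card ^ 2 := by
  rw [sq, ← Finset.card_product]
  symm
  refine Finset.card_bij (fun z hz => (⟨z.1, (Finset.mem_product.1 hz).1⟩,
    ⟨z.1 + z.2, Finset.add_mem_add (Finset.mem_product.1 hz).1 (Finset.mem_product.1 hz).2⟩,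
    ⟨z.1 + z.2 + z.2, Finset.add_mem_add (Finset.add_mem_add (Finset.mem_product.1 hz).1
      (Finset.mem_product.1 hz).2) (Finset.mem_product.1 hz).2⟩)) ?_ ?_ ?_
  · intro z hz
    exact Finset.mem_filter.2 ⟨Finset.mem_univ _, z.2, (Finset.mem_product.1 hz).2, rfl, rfl⟩
  · rintro ⟨x, a⟩ h1 ⟨y, b⟩ h2 h
    simp only [Prod.mk.injEq, Subtype.mk.injEq] at h
    obtain ⟨h3, h4, _⟩ := h
    subst h3
    rw [add_left_cancel h4]
  · rintro ⟨x, y, z⟩ h
    obtain ⟨a, ha, h1, h2⟩ := (Finset.mem_filter.1 h).2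
    dsimp only at h1 h2
    refine ⟨(x, a), Finset.mem_product.2 ⟨x.2, ha⟩, ?_⟩
    exact Prod.ext rfl (Prod.ext (Subtype.ext h1.symm) (Subtype.ext h2.symm))

theorem roth_doubling (K : ℝ) (hK1 : 1 ≤ K) : ∃ n₀ : ℕ, ∀ P : Finset Pt, n₀ ≤ P.card →
    ((P - P).card : ℝ) ≤ K * P.card → ¬ ThreeAPFree (P : Set Pt) := by
  set ε : ℝ := 1 / (1 + K ^ 2 + K ^ 3) ^ 2 with hε
  have hε0 : 0 < ε := by positivity
  have hb : 0 < triangleRemovalBound ε := by
    have hle : ε ≤ 1 := by
      rw [hε, div_le_one (by positivity)]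
      have : (1 : ℝ) ≤ 1 + K ^ 2 + K ^ 3 := by
        have : 0 ≤ K ^ 2 + K ^ 3 := by positivity
        linarith
      exact one_le_pow₀ this
    first
      | exact triangleRemovalBound_pos hε0 hle
      | exact triangleRemovalBound_pos hε0
  refine ⟨⌊(triangleRemovalBound ε)⁻¹⌋₊ + 1, ?_⟩
  intro P hn hK hfree
  have := tri_noacc hfree
  have hn0 : 0 < P.card := by omega
  have hne : P.Nonempty := Finset.card_pos.1 hn0
  have hn0' : (0 : ℝ) < P.card := by exact_mod_cast hn0
  have hratio : ((P - P).card : ℝ) / P.card ≤ K := by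
    rw [div_le_iff₀ hn0']; exact hK
  have hratio0 : (0 : ℝ) ≤ ((P - P).card : ℝ) / P.card := by positivity
  have key : ∀ j : ℕ, ((j • P : Finset Pt).card : ℝ) ≤ K ^ j * P.card := by
    intro j
    have h := Finset.pluennecke_ruzsa_inequality_nsmul_sub hne P j
    have h3 : ((j • P : Finset Pt).card : ℝ) ≤
        (((P - P).card : ℝ) / P.card) ^ j * P.card := by
      have := (NNRat.cast_le (K := ℝ)).2 h
      push_cast at this
      exact this
    exact h3.trans (mul_le_mul_of_nonneg_right (pow_le_pow_left₀ hratio0 hratio j) hn0'.le)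
  have h2 : ((P + P : Finset Pt).card : ℝ) ≤ K ^ 2 * P.card := by
    have := key 2
    rwa [two_nsmul] at this
  have h3 : ((P + P + P : Finset Pt).card : ℝ) ≤ K ^ 3 * P.card := by
    have := key 3
    rwa [show (3 : ℕ) = 2 + 1 from rfl, add_nsmul, two_nsmul, one_nsmul] at this
  have hfar : (graph (tri P)).FarFromTriangleFree ε := by
    refine farFromTriangleFree _ ?_
    rw [card_tri, Fintype.card_coe, Fintype.card_coe, Fintype.card_coe]
    push_cast
    have h4 : (P.card : ℝ) + (P + P : Finset Pt).card + (P + P + P : Finset Pt).card ≤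
        (1 + K ^ 2 + K ^ 3) * P.card := by linarith
    have h5 : ((P.card : ℝ) + (P + P : Finset Pt).card + (P + P + P : Finset Pt).card) ^ 2 ≤
        ((1 + K ^ 2 + K ^ 3) * P.card) ^ 2 := pow_le_pow_left₀ (by positivity) h4 2
    calc ε * ((P.card : ℝ) + (P + P : Finset Pt).card + (P + P + P : Finset Pt).card) ^ 2
        ≤ ε * ((1 + K ^ 2 + K ^ 3) * P.card) ^ 2 := mul_le_mul_of_nonneg_left h5 hε0.le
      _ = (P.card : ℝ) ^ 2 := by
          rw [hε, mul_pow]
          field_simp
  have h6 : triangleRemovalBound ε *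
      (Fintype.card ({x // x ∈ P} ⊕ {x // x ∈ P + P} ⊕ {x // x ∈ P + P + P}) : ℝ) ^ 3 ≤
      ((P.card ^ 2 : ℕ) : ℝ) := by
    have h60 := hfar.le_card_cliqueFinset
    have h61 := card_triangles (tri P)
    rw [card_tri] at h61
    rw [← h61]
    refine h60.trans (le_of_eq (congrArg (fun s : Finset (Finset _) => (s.card : ℝ))
      (Finset.ext fun s => ?_)))
    exact (@mem_cliqueFinset_iff _ _ (_) (_) (_) _ _).trans
      (@mem_cliqueFinset_iff _ _ (_) (_) (_) _ _).symm
  have h7 : (P.card : ℝ) ≤ Fintype.card ({x // x ∈ P} ⊕ {x // x ∈ P + P} ⊕ {x // x ∈ P + P + P}) := by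
    rw [Fintype.card_sum, Fintype.card_coe]
    push_cast
    have : (0 : ℝ) ≤ Fintype.card ({x // x ∈ P + P} ⊕ {x // x ∈ P + P + P}) := Nat.cast_nonneg _
    linarith
  have h8 : triangleRemovalBound ε * (P.card : ℝ) ^ 3 ≤ (P.card : ℝ) ^ 2 := by
    refine le_trans (mul_le_mul_of_nonneg_left (pow_le_pow_left₀ hn0'.le h7 3) hb.le) ?_
    have := h6
    push_cast at this ⊢
    exact this
  have h9 : triangleRemovalBound ε * P.card ≤ 1 := by
    have h10 : (0 : ℝ) < (P.card : ℝ) ^ 2 := by positivity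
    have h11 : (triangleRemovalBound ε * P.card) * (P.card : ℝ) ^ 2 ≤ 1 * (P.card : ℝ) ^ 2 := by
      calc (triangleRemovalBound ε * P.card) * (P.card : ℝ) ^ 2
          = triangleRemovalBound ε * (P.card : ℝ) ^ 3 := by ring
        _ ≤ (P.card : ℝ) ^ 2 := h8
        _ = 1 * (P.card : ℝ) ^ 2 := by ring
    exact le_of_mul_le_mul_right h11 h10
  have h12 : (triangleRemovalBound ε)⁻¹ < P.card := by
    have h13 := Nat.lt_floor_add_one ((triangleRemovalBound ε)⁻¹)
    have h14 : ((⌊(triangleRemovalBound ε)⁻¹⌋₊ + 1 : ℕ) : ℝ) ≤ P.card := by exact_mod_cast hn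
    push_cast at h14
    linarith
  have h15 : 1 < triangleRemovalBound ε * P.card := by
    have := mul_lt_mul_of_pos_left h12 hb
    rwa [mul_inv_cancel₀ hb.ne'] at this
  linarith

/-- A set with a nontrivial three term progression has a degenerate triangle. -/
theorem tri_of_ap {P : Finset Pt} (h : ¬ ThreeAPFree (P : Set Pt)) : HasTriangle P 0 := by
  unfold ThreeAPFree at h
  push Not at h
  obtain ⟨a, ha, b, hb, c, hc, habc, hab⟩ := h
  have ha' : a ∈ P := by exact_mod_cast ha
  have hb' : b ∈ P := by exact_mod_cast hb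
  have hc' : c ∈ P := by exact_mod_cast hc
  refine ⟨a, ha', b, hb', c, hc', hab, ?_, ?_, ?_⟩
  · rintro rfl
    exact hab (add_right_cancel habc)
  · rintro rfl
    exact hab (two_inj habc)
  · have e0 : a 0 + c 0 = b 0 + b 0 := by
      have := congrArg (fun v : Pt => v 0) habc
      simpa using this
    have e1 : a 1 + c 1 = b 1 + b 1 := by
      have := congrArg (fun v : Pt => v 1) habc
      simpa using this
    unfold area
    have f0 : c 0 = 2 * b 0 - a 0 := by linarith
    have f1 : c 1 = 2 * b 1 - a 1 := by linarith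
    have : (b 0 - a 0) * (c 1 - a 1) - (b 1 - a 1) * (c 0 - a 0) = 0 := by
      rw [f0, f1]; ring
    rw [this, abs_zero, zero_div]

/-- Sets of energy at least `n ^ 3 / K` have three collinear points. -/
theorem energy_zero (K : ℝ) (hK1 : 1 ≤ K) : ∃ n₀ : ℕ, ∀ P : Finset Pt, n₀ ≤ P.card →
    (P.card : ℝ) ^ 3 ≤ K * (Finset.addEnergy P P : ℝ) → HasTriangle P 0 := by
  have hK4 : (1 : ℝ) ≤ K ^ 4 := one_le_pow₀ hK1
  obtain ⟨n₁, h₁⟩ := roth_doubling (4096 * K ^ 4) (by linarith)
  refine ⟨⌈4 * K * n₁⌉₊ + 1, ?_⟩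
  intro P hn hE
  obtain ⟨A, hAP, h1, h2⟩ := Vale.Agent.P041.BSG.bsg_aux P K hK1 hE
  have h3 : n₁ ≤ A.card := by
    by_contra hcon
    push Not at hcon
    have h4 : (A.card : ℝ) ≤ n₁ := by exact_mod_cast hcon.le
    have h5 : (P.card : ℝ) ≤ 4 * K * n₁ :=
      h1.trans (mul_le_mul_of_nonneg_left h4 (by linarith))
    have h6 : (4 * K * n₁ : ℝ) ≤ ⌈4 * K * n₁⌉₊ := Nat.le_ceil _
    have h7 : ((⌈4 * K * n₁⌉₊ + 1 : ℕ) : ℝ) ≤ P.card := by exact_mod_cast hn
    push_cast at h7
    linarith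
  exact (tri_of_ap (h₁ A h3 h2)).mono hAP le_rfl

end Vale.Agent.P036h
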