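import Vale.Agent.P036h.Doubling

/-!
# P036: from a short popular difference to a small triangle
-/

namespace Vale.Agent.P036h

open Finset
open scoped Pointwise Classical

theorem HasTriangle.mono {P Q : Finset Pt} {a b : ℝ} (h : HasTriangle P a) (hPQ : P ⊆ Q)
    (hab : a ≤ b) : HasTriangle Q b := by
  obtain ⟨p, hp, q, hq, r, hr, h1, h2, h3, h4⟩ := h
  exact ⟨p, hPQ hp, q, hPQ hq, r, hPQ hr, h1, h2, h3, h4.trans hab⟩

theorem lt_inv_of {k : ℕ} (hk : 0 < k) {x : ℝ} (h : |(k : ℝ) * x| < 1) : |x| < 1 / k := by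
  have hk' : (0 : ℝ) < k := by exact_mod_cast hk
  rw [abs_mul, abs_of_pos hk'] at h
  rw [lt_div_iff₀ hk', mul_comm]
  exact h

/-- One pair at a short difference and any third point. -/
theorem tri_one {A : Finset Pt} (hA : InSquare A) (h3 : 3 ≤ A.card) {k : ℕ} (hk : 0 < k)
    {d : Pt} (hd : d ≠ 0) (h0 : |(k : ℝ) * d 0| < 1) (h1 : |(k : ℝ) * d 1| < 1)
    (hr : 0 < (rep A d).card) : HasTriangle A (1 / k) := by
  obtain ⟨p, hp⟩ := Finset.card_pos.1 hr
  obtain ⟨hpA, hpd⟩ := Finset.mem_filter.1 hp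
  have hcard : 0 < ((A.erase p).erase (p + d)).card := by
    have h1 := Finset.pred_card_le_card_erase (s := A) (a := p)
    have h2 := Finset.pred_card_le_card_erase (s := A.erase p) (a := p + d)
    omega
  obtain ⟨s, hs⟩ := Finset.card_pos.1 hcard
  rw [Finset.mem_erase, Finset.mem_erase] at hs
  obtain ⟨hs1, hs2, hsA⟩ := hs
  have e0 := lt_inv_of hk h0
  have e1 := lt_inv_of hk h1
  have sp := hA p hpA
  have ss := hA s hsA
  refine ⟨p, hpA, p + d, hpd, s, hsA, ?_, Ne.symm hs1, Ne.symm hs2, ?_⟩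
  · intro h
    exact hd (by simpa using h.symm)
  · unfold area
    have f0 : (p + d) 0 - p 0 = d 0 := by simp
    have f1 : (p + d) 1 - p 1 = d 1 := by simp
    rw [f0, f1]
    have g0 : |s 0 - p 0| ≤ 1 := by rw [abs_le]; constructor <;> linarith [sp.1.1, sp.1.2, ss.1.1, ss.1.2]
    have g1 : |s 1 - p 1| ≤ 1 := by rw [abs_le]; constructor <;> linarith [sp.2.1, sp.2.2, ss.2.1, ss.2.2]
    have g2 : |d 0 * (s 1 - p 1) - d 1 * (s 0 - p 0)| ≤ |d 0| * |s 1 - p 1| + |d 1| * |s 0 - p 0| := by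
      rw [← abs_mul, ← abs_mul]; exact abs_sub _ _
    have g3 : |d 0| * |s 1 - p 1| ≤ |d 0| * 1 := mul_le_mul_of_nonneg_left g1 (abs_nonneg _)
    have g4 : |d 1| * |s 0 - p 0| ≤ |d 1| * 1 := mul_le_mul_of_nonneg_left g0 (abs_nonneg _)
    linarith

/-- Many pairs at a short difference. -/
theorem tri_many {A : Finset Pt} (hA : InSquare A) {k : ℕ} (hk : 0 < k)
    {d : Pt} (hd : d ≠ 0) (h0 : |(k : ℝ) * d 0| < 1) (h1 : |(k : ℝ) * d 1| < 1)
    {M : ℕ} (hM : 0 < M) (hr : M + 2 ≤ (rep A d).card) : HasTriangle A (1 / (k * M)) := by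
  have hk' : (0 : ℝ) < k := by exact_mod_cast hk
  have hM' : (0 : ℝ) < M := by exact_mod_cast hM
  have e0 := lt_inv_of hk h0
  have e1 := lt_inv_of hk h1
  set g : Pt → ℝ := fun p => d 0 * p 1 - d 1 * p 0 with hg
  set lo : ℝ := min (d 0) 0 + min (-(d 1)) 0 with hlo
  set c : ℝ := (k : ℝ) * M / 2 with hc
  have hcpos : 0 < c := by positivity
  have hrange : ∀ p ∈ A, 0 ≤ g p - lo ∧ g p - lo ≤ 2 / k := by
    intro p hp
    have sp := hA p hp
    have key : ∀ a u : ℝ, 0 ≤ u → u ≤ 1 → min a 0 ≤ a * u ∧ a * u - min a 0 ≤ |a| := by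
      intro a u hu0 hu1
      rcases le_total a 0 with h | h
      · rw [min_eq_left h, abs_of_nonpos h]
        constructor <;> nlinarith
      · rw [min_eq_right h, abs_of_nonneg h]
        constructor <;> nlinarith
    have k0 := key (d 0) (p 1) sp.2.1 sp.2.2
    have k1 := key (-(d 1)) (p 0) sp.1.1 sp.1.2
    rw [abs_neg] at k1
    have : (2 : ℝ) / k = 1 / k + 1 / k := by ring
    constructor
    · simp only [hg, hlo]; linarith [k0.1, k1.1]
    · simp only [hg, hlo]; rw [this]; linarith [k0.2, k1.2]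
  have hmaps : ∀ p ∈ rep A d, ⌊(g p - lo) * c⌋ ∈ Finset.Icc (0 : ℤ) M := by
    intro p hp
    have hpA := (Finset.mem_filter.1 hp).1
    obtain ⟨r0, r1⟩ := hrange p hpA
    rw [Finset.mem_Icc]
    refine ⟨Int.floor_nonneg.2 (by positivity), ?_⟩
    have : (g p - lo) * c ≤ ((M : ℤ) : ℝ) := by
      push_cast
      calc (g p - lo) * c ≤ (2 / k) * c := mul_le_mul_of_nonneg_right r1 hcpos.le
        _ = M := by rw [hc]; field_simp
    have h' := Int.floor_le_floor this
    rwa [Int.floor_intCast] at h'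
  obtain ⟨p, hp, q, hq, hpq, hfl⟩ := Finset.exists_ne_map_eq_of_card_lt_of_maps_to
    (s := rep A d) (t := Finset.Icc (0 : ℤ) M) (f := fun p => ⌊(g p - lo) * c⌋) (by
      rw [Int.card_Icc]
      omega) hmaps
  obtain ⟨hpA, hpd⟩ := Finset.mem_filter.1 hp
  obtain ⟨hqA, hqd⟩ := Finset.mem_filter.1 hq
  have hpne : p ≠ p + d := by
    intro h
    exact hd (by simpa using h.symm)
  by_cases hqp : q = p + d
  · refine ⟨p, hpA, p + d, hpd, q + d, hqd, hpne, ?_, ?_, ?_⟩
    · rw [hqp]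
      intro h
      exact hd (by simpa using h.symm)
    · rw [hqp]
      intro h
      have h2 : d + d = 0 := by
        have : p + 0 = p + (d + d) := by rw [add_zero, ← add_assoc]; exact h
        exact (add_left_cancel this).symm
      exact hd (by
        have h3 : (2 : ℝ) • d = 0 := by rw [two_smul]; exact h2
        exact (smul_eq_zero.1 h3).resolve_left (by norm_num))
    · rw [hqp]
      unfold area
      have f0 : (p + d) 0 - p 0 = d 0 := by simp
      have f1 : (p + d) 1 - p 1 = d 1 := by simp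
      have f2 : (p + d + d) 0 - p 0 = 2 * d 0 := by simp; ring
      have f3 : (p + d + d) 1 - p 1 = 2 * d 1 := by simp; ring
      rw [f0, f1, f2, f3]
      have : d 0 * (2 * d 1) - d 1 * (2 * d 0) = 0 := by ring
      rw [this, abs_zero, zero_div]
      positivity
  · refine ⟨p, hpA, p + d, hpd, q, hqA, hpne, Ne.symm hqp, hpq, ?_⟩
    unfold area
    have f0 : (p + d) 0 - p 0 = d 0 := by simp
    have f1 : (p + d) 1 - p 1 = d 1 := by simp
    rw [f0, f1]
    have hlt := Int.abs_sub_lt_one_of_floor_eq_floor hfl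
    have e2 : (g p - lo) * c - (g q - lo) * c = (g p - g q) * c := by ring
    rw [e2, abs_mul, abs_of_pos hcpos] at hlt
    have e3 : d 0 * (q 1 - p 1) - d 1 * (q 0 - p 0) = -(g p - g q) := by
      simp only [hg]; ring
    rw [e3, abs_neg]
    have e4 : |g p - g q| ≤ 1 / c := by
      rw [le_div_iff₀ hcpos]; exact hlt.le
    have e5 : 1 / c = 2 * (1 / (k * M)) := by rw [hc]; field_simp
    rw [e5] at e4
    linarith

theorem tri_pop {A : Finset Pt} (hA : InSquare A) (h3 : 3 ≤ A.card) {k : ℕ} (hk : 0 < k)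
    {d : Pt} (hd : d ≠ 0) (h0 : |(k : ℝ) * d 0| < 1) (h1 : |(k : ℝ) * d 1| < 1)
    (hr : 0 < (rep A d).card) : HasTriangle A (4 / (k * (rep A d).card)) := by
  have hk' : (0 : ℝ) < k := by exact_mod_cast hk
  have hr' : (0 : ℝ) < (rep A d).card := by exact_mod_cast hr
  rcases le_or_gt (rep A d).card 4 with h | h
  · refine (tri_one hA h3 hk hd h0 h1 hr).mono (Finset.Subset.refl _) ?_
    have : ((rep A d).card : ℝ) ≤ 4 := by exact_mod_cast h
    rw [div_le_div_iff₀ hk' (by positivity)]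
    nlinarith
  · obtain ⟨M, hM⟩ : ∃ M, (rep A d).card = M + 2 := ⟨(rep A d).card - 2, by omega⟩
    have hM0 : 0 < M := by omega
    have hM' : (3 : ℝ) ≤ M := by
      have : 3 ≤ M := by omega
      exact_mod_cast this
    refine (tri_many hA hk hd h0 h1 hM0 hM.ge).mono (Finset.Subset.refl _) ?_
    rw [hM]
    push_cast
    rw [div_le_div_iff₀ (by positivity) (by positivity)]
    nlinarith

end Vale.Agent.P036h
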